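import Vale.Agent.P237.Quant.LinearUpperTables.U100B0Poly

/-!
The upper bound of the linear term for `100 ≤ n`, bin 0: the other checks and validity.
-/

set_option linter.all false

namespace Vale.Agent.P237.Quant

set_option maxRecDepth 100000 in
theorem upTabU100B0Env0 : (upTabU100B0Cells0.all fun c => c.envOK upTabU100B0) = true := by
  decide +kernel

set_option maxRecDepth 100000 in
theorem upTabU100B0Env1 : (upTabU100B0Cells1.all fun c => c.envOK upTabU100B0) = true := by
  decide +kernel

set_option maxRecDepth 100000 in
theorem upTabU100B0Env2 : (upTabU100B0Cells2.all fun c => c.envOK upTabU100B0) = true := by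
  decide +kernel

set_option maxRecDepth 100000 in
theorem upTabU100B0Env3 : (upTabU100B0Cells3.all fun c => c.envOK upTabU100B0) = true := by
  decide +kernel

set_option maxRecDepth 100000 in
theorem upTabU100B0Env4 : (upTabU100B0Cells4.all fun c => c.envOK upTabU100B0) = true := by
  decide +kernel

set_option maxRecDepth 100000 in
theorem upTabU100B0Env5 : (upTabU100B0Cells5.all fun c => c.envOK upTabU100B0) = true := by
  decide +kernel

set_option maxRecDepth 100000 in
theorem upTabU100B0Env6 : (upTabU100B0Cells6.all fun c => c.envOK upTabU100B0) = true := by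
  decide +kernel

set_option maxRecDepth 100000 in
theorem upTabU100B0Env7 : (upTabU100B0Cells7.all fun c => c.envOK upTabU100B0) = true := by
  decide +kernel

set_option maxRecDepth 100000 in
theorem upTabU100B0Nodes0 : upTabU100B0Item0.check upTabU100B0.K = true := by
  decide +kernel

set_option maxRecDepth 100000 in
theorem upTabU100B0Nodes1 : upTabU100B0Item1.check upTabU100B0.K = true := by
  decide +kernel

set_option maxRecDepth 100000 in
theorem upTabU100B0Nodes2 : upTabU100B0Item2.check upTabU100B0.K = true := by
  decide +kernel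

set_option maxRecDepth 100000 in
theorem upTabU100B0Nodes3 : upTabU100B0Item3.check upTabU100B0.K = true := by
  decide +kernel

set_option maxRecDepth 100000 in
theorem upTabU100B0Cover : upCover upTabU100B0.n₁ upTabU100B0.n₀ [upTabU100B0Item0, upTabU100B0Item1, upTabU100B0Item2, upTabU100B0Item3] = true := by
  decide +kernel

set_option maxRecDepth 100000 in
theorem upTabU100B0Base : upTabU100B0.baseOK = true := by
  decide +kernel

theorem upTabU100B0_valid :
    upTabU100B0.baseOK = true ∧ upTabU100B0.polyOK = true ∧ upTabU100B0.envOK = true := by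
  refine ⟨upTabU100B0Base, ?_, ?_⟩
  · simp only [UpData.polyOK, show upTabU100B0.cells = upTabU100B0Cells0 ++ upTabU100B0Cells1 ++ upTabU100B0Cells2 ++ upTabU100B0Cells3 ++ upTabU100B0Cells4 ++ upTabU100B0Cells5 ++ upTabU100B0Cells6 ++ upTabU100B0Cells7 from rfl, List.all_append, Bool.and_eq_true,
      upTabU100B0Poly0, upTabU100B0Poly1, upTabU100B0Poly2, upTabU100B0Poly3, upTabU100B0Poly4, upTabU100B0Poly5, upTabU100B0Poly6, upTabU100B0Poly7, and_self]
  · simp only [UpData.envOK, show upTabU100B0.cells = upTabU100B0Cells0 ++ upTabU100B0Cells1 ++ upTabU100B0Cells2 ++ upTabU100B0Cells3 ++ upTabU100B0Cells4 ++ upTabU100B0Cells5 ++ upTabU100B0Cells6 ++ upTabU100B0Cells7 from rfl, List.all_append, Bool.and_eq_true,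
      show upTabU100B0.items = upTabU100B0Items from rfl, upTabU100B0Items, List.all_cons, List.all_nil, Bool.and_true,
      upTabU100B0Cover,
      upTabU100B0Nodes0, upTabU100B0Nodes1, upTabU100B0Nodes2, upTabU100B0Nodes3, upTabU100B0Env0, upTabU100B0Env1, upTabU100B0Env2, upTabU100B0Env3, upTabU100B0Env4, upTabU100B0Env5, upTabU100B0Env6, upTabU100B0Env7, and_self]

end Vale.Agent.P237.Quant
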