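import Vale.Agent.P237.Quant.LinearUpperTables.U100B1Poly

/-!
The upper bound of the linear term for `100 ≤ n`, bin 1: the other checks and validity.
-/

set_option linter.all false

namespace Vale.Agent.P237.Quant

set_option maxRecDepth 100000 in
theorem upTabU100B1Env0 : (upTabU100B1Cells0.all fun c => c.envOK upTabU100B1) = true := by
  decide +kernel

set_option maxRecDepth 100000 in
theorem upTabU100B1Env1 : (upTabU100B1Cells1.all fun c => c.envOK upTabU100B1) = true := by
  decide +kernel

set_option maxRecDepth 100000 in
theorem upTabU100B1Env2 : (upTabU100B1Cells2.all fun c => c.envOK upTabU100B1) = true := by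
  decide +kernel

set_option maxRecDepth 100000 in
theorem upTabU100B1Env3 : (upTabU100B1Cells3.all fun c => c.envOK upTabU100B1) = true := by
  decide +kernel

set_option maxRecDepth 100000 in
theorem upTabU100B1Env4 : (upTabU100B1Cells4.all fun c => c.envOK upTabU100B1) = true := by
  decide +kernel

set_option maxRecDepth 100000 in
theorem upTabU100B1Env5 : (upTabU100B1Cells5.all fun c => c.envOK upTabU100B1) = true := by
  decide +kernel

set_option maxRecDepth 100000 in
theorem upTabU100B1Env6 : (upTabU100B1Cells6.all fun c => c.envOK upTabU100B1) = true := by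
  decide +kernel

set_option maxRecDepth 100000 in
theorem upTabU100B1Env7 : (upTabU100B1Cells7.all fun c => c.envOK upTabU100B1) = true := by
  decide +kernel

set_option maxRecDepth 100000 in
theorem upTabU100B1Nodes0 : upTabU100B1Item0.check upTabU100B1.K = true := by
  decide +kernel

set_option maxRecDepth 100000 in
theorem upTabU100B1Nodes1 : upTabU100B1Item1.check upTabU100B1.K = true := by
  decide +kernel

set_option maxRecDepth 100000 in
theorem upTabU100B1Nodes2 : upTabU100B1Item2.check upTabU100B1.K = true := by
  decide +kernel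

set_option maxRecDepth 100000 in
theorem upTabU100B1Nodes3 : upTabU100B1Item3.check upTabU100B1.K = true := by
  decide +kernel

set_option maxRecDepth 100000 in
theorem upTabU100B1Cover : upCover upTabU100B1.n₁ upTabU100B1.n₀ [upTabU100B1Item0, upTabU100B1Item1, upTabU100B1Item2, upTabU100B1Item3] = true := by
  decide +kernel

set_option maxRecDepth 100000 in
theorem upTabU100B1Base : upTabU100B1.baseOK = true := by
  decide +kernel

theorem upTabU100B1_valid :
    upTabU100B1.baseOK = true ∧ upTabU100B1.polyOK = true ∧ upTabU100B1.envOK = true := by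
  refine ⟨upTabU100B1Base, ?_, ?_⟩
  · simp only [UpData.polyOK, show upTabU100B1.cells = upTabU100B1Cells0 ++ upTabU100B1Cells1 ++ upTabU100B1Cells2 ++ upTabU100B1Cells3 ++ upTabU100B1Cells4 ++ upTabU100B1Cells5 ++ upTabU100B1Cells6 ++ upTabU100B1Cells7 from rfl, List.all_append, Bool.and_eq_true,
      upTabU100B1Poly0, upTabU100B1Poly1, upTabU100B1Poly2, upTabU100B1Poly3, upTabU100B1Poly4, upTabU100B1Poly5, upTabU100B1Poly6, upTabU100B1Poly7, and_self]
  · simp only [UpData.envOK, show upTabU100B1.cells = upTabU100B1Cells0 ++ upTabU100B1Cells1 ++ upTabU100B1Cells2 ++ upTabU100B1Cells3 ++ upTabU100B1Cells4 ++ upTabU100B1Cells5 ++ upTabU100B1Cells6 ++ upTabU100B1Cells7 from rfl, List.all_append, Bool.and_eq_true,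
      show upTabU100B1.items = upTabU100B1Items from rfl, upTabU100B1Items, List.all_cons, List.all_nil, Bool.and_true,
      upTabU100B1Cover,
      upTabU100B1Nodes0, upTabU100B1Nodes1, upTabU100B1Nodes2, upTabU100B1Nodes3, upTabU100B1Env0, upTabU100B1Env1, upTabU100B1Env2, upTabU100B1Env3, upTabU100B1Env4, upTabU100B1Env5, upTabU100B1Env6, upTabU100B1Env7, and_self]

end Vale.Agent.P237.Quant
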