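import Vale.Agent.P237.Quant.LinearUpperTables.U100B2Poly

/-!
The upper bound of the linear term for `100 ≤ n`, bin 2: the other checks and validity.
-/

set_option linter.all false

namespace Vale.Agent.P237.Quant

set_option maxRecDepth 100000 in
theorem upTabU100B2Env0 : (upTabU100B2Cells0.all fun c => c.envOK upTabU100B2) = true := by
  decide +kernel

set_option maxRecDepth 100000 in
theorem upTabU100B2Env1 : (upTabU100B2Cells1.all fun c => c.envOK upTabU100B2) = true := by
  decide +kernel

set_option maxRecDepth 100000 in
theorem upTabU100B2Env2 : (upTabU100B2Cells2.all fun c => c.envOK upTabU100B2) = true := by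
  decide +kernel

set_option maxRecDepth 100000 in
theorem upTabU100B2Env3 : (upTabU100B2Cells3.all fun c => c.envOK upTabU100B2) = true := by
  decide +kernel

set_option maxRecDepth 100000 in
theorem upTabU100B2Env4 : (upTabU100B2Cells4.all fun c => c.envOK upTabU100B2) = true := by
  decide +kernel

set_option maxRecDepth 100000 in
theorem upTabU100B2Env5 : (upTabU100B2Cells5.all fun c => c.envOK upTabU100B2) = true := by
  decide +kernel

set_option maxRecDepth 100000 in
theorem upTabU100B2Env6 : (upTabU100B2Cells6.all fun c => c.envOK upTabU100B2) = true := by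
  decide +kernel

set_option maxRecDepth 100000 in
theorem upTabU100B2Env7 : (upTabU100B2Cells7.all fun c => c.envOK upTabU100B2) = true := by
  decide +kernel

set_option maxRecDepth 100000 in
theorem upTabU100B2Env8 : (upTabU100B2Cells8.all fun c => c.envOK upTabU100B2) = true := by
  decide +kernel

set_option maxRecDepth 100000 in
theorem upTabU100B2Env9 : (upTabU100B2Cells9.all fun c => c.envOK upTabU100B2) = true := by
  decide +kernel

set_option maxRecDepth 100000 in
theorem upTabU100B2Env10 : (upTabU100B2Cells10.all fun c => c.envOK upTabU100B2) = true := by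
  decide +kernel

set_option maxRecDepth 100000 in
theorem upTabU100B2Env11 : (upTabU100B2Cells11.all fun c => c.envOK upTabU100B2) = true := by
  decide +kernel

set_option maxRecDepth 100000 in
theorem upTabU100B2Env12 : (upTabU100B2Cells12.all fun c => c.envOK upTabU100B2) = true := by
  decide +kernel

set_option maxRecDepth 100000 in
theorem upTabU100B2Nodes0 : upTabU100B2Item0.check upTabU100B2.K = true := by
  decide +kernel

set_option maxRecDepth 100000 in
theorem upTabU100B2Nodes1 : upTabU100B2Item1.check upTabU100B2.K = true := by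
  decide +kernel

set_option maxRecDepth 100000 in
theorem upTabU100B2Nodes2 : upTabU100B2Item2.check upTabU100B2.K = true := by
  decide +kernel

set_option maxRecDepth 100000 in
theorem upTabU100B2Nodes3 : upTabU100B2Item3.check upTabU100B2.K = true := by
  decide +kernel

set_option maxRecDepth 100000 in
theorem upTabU100B2Cover : upCover upTabU100B2.n₁ upTabU100B2.n₀ [upTabU100B2Item0, upTabU100B2Item1, upTabU100B2Item2, upTabU100B2Item3] = true := by
  decide +kernel

set_option maxRecDepth 100000 in
theorem upTabU100B2Base : upTabU100B2.baseOK = true := by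
  decide +kernel

theorem upTabU100B2_valid :
    upTabU100B2.baseOK = true ∧ upTabU100B2.polyOK = true ∧ upTabU100B2.envOK = true := by
  refine ⟨upTabU100B2Base, ?_, ?_⟩
  · simp only [UpData.polyOK, show upTabU100B2.cells = upTabU100B2Cells0 ++ upTabU100B2Cells1 ++ upTabU100B2Cells2 ++ upTabU100B2Cells3 ++ upTabU100B2Cells4 ++ upTabU100B2Cells5 ++ upTabU100B2Cells6 ++ upTabU100B2Cells7 ++ upTabU100B2Cells8 ++ upTabU100B2Cells9 ++ upTabU100B2Cells10 ++ upTabU100B2Cells11 ++ upTabU100B2Cells12 from rfl, List.all_append, Bool.and_eq_true,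
      upTabU100B2Poly0, upTabU100B2Poly1, upTabU100B2Poly2, upTabU100B2Poly3, upTabU100B2Poly4, upTabU100B2Poly5, upTabU100B2Poly6, upTabU100B2Poly7, upTabU100B2Poly8, upTabU100B2Poly9, upTabU100B2Poly10, upTabU100B2Poly11, upTabU100B2Poly12, and_self]
  · simp only [UpData.envOK, show upTabU100B2.cells = upTabU100B2Cells0 ++ upTabU100B2Cells1 ++ upTabU100B2Cells2 ++ upTabU100B2Cells3 ++ upTabU100B2Cells4 ++ upTabU100B2Cells5 ++ upTabU100B2Cells6 ++ upTabU100B2Cells7 ++ upTabU100B2Cells8 ++ upTabU100B2Cells9 ++ upTabU100B2Cells10 ++ upTabU100B2Cells11 ++ upTabU100B2Cells12 from rfl, List.all_append, Bool.and_eq_true,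
      show upTabU100B2.items = upTabU100B2Items from rfl, upTabU100B2Items, List.all_cons, List.all_nil, Bool.and_true,
      upTabU100B2Cover,
      upTabU100B2Nodes0, upTabU100B2Nodes1, upTabU100B2Nodes2, upTabU100B2Nodes3, upTabU100B2Env0, upTabU100B2Env1, upTabU100B2Env2, upTabU100B2Env3, upTabU100B2Env4, upTabU100B2Env5, upTabU100B2Env6, upTabU100B2Env7, upTabU100B2Env8, upTabU100B2Env9, upTabU100B2Env10, upTabU100B2Env11, upTabU100B2Env12, and_self]

end Vale.Agent.P237.Quant
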