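import Vale.Agent.P237.Quant.LinearUpperTables.U100B3Poly

/-!
The upper bound of the linear term for `100 ≤ n`, bin 3: the other checks and validity.
-/

set_option linter.all false

namespace Vale.Agent.P237.Quant

set_option maxRecDepth 100000 in
theorem upTabU100B3Env0 : (upTabU100B3Cells0.all fun c => c.envOK upTabU100B3) = true := by
  decide +kernel

set_option maxRecDepth 100000 in
theorem upTabU100B3Env1 : (upTabU100B3Cells1.all fun c => c.envOK upTabU100B3) = true := by
  decide +kernel

set_option maxRecDepth 100000 in
theorem upTabU100B3Env2 : (upTabU100B3Cells2.all fun c => c.envOK upTabU100B3) = true := by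
  decide +kernel

set_option maxRecDepth 100000 in
theorem upTabU100B3Env3 : (upTabU100B3Cells3.all fun c => c.envOK upTabU100B3) = true := by
  decide +kernel

set_option maxRecDepth 100000 in
theorem upTabU100B3Env4 : (upTabU100B3Cells4.all fun c => c.envOK upTabU100B3) = true := by
  decide +kernel

set_option maxRecDepth 100000 in
theorem upTabU100B3Env5 : (upTabU100B3Cells5.all fun c => c.envOK upTabU100B3) = true := by
  decide +kernel

set_option maxRecDepth 100000 in
theorem upTabU100B3Env6 : (upTabU100B3Cells6.all fun c => c.envOK upTabU100B3) = true := by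
  decide +kernel

set_option maxRecDepth 100000 in
theorem upTabU100B3Env7 : (upTabU100B3Cells7.all fun c => c.envOK upTabU100B3) = true := by
  decide +kernel

set_option maxRecDepth 100000 in
theorem upTabU100B3Env8 : (upTabU100B3Cells8.all fun c => c.envOK upTabU100B3) = true := by
  decide +kernel

set_option maxRecDepth 100000 in
theorem upTabU100B3Env9 : (upTabU100B3Cells9.all fun c => c.envOK upTabU100B3) = true := by
  decide +kernel

set_option maxRecDepth 100000 in
theorem upTabU100B3Env10 : (upTabU100B3Cells10.all fun c => c.envOK upTabU100B3) = true := by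
  decide +kernel

set_option maxRecDepth 100000 in
theorem upTabU100B3Env11 : (upTabU100B3Cells11.all fun c => c.envOK upTabU100B3) = true := by
  decide +kernel

set_option maxRecDepth 100000 in
theorem upTabU100B3Env12 : (upTabU100B3Cells12.all fun c => c.envOK upTabU100B3) = true := by
  decide +kernel

set_option maxRecDepth 100000 in
theorem upTabU100B3Nodes0 : upTabU100B3Item0.check upTabU100B3.K = true := by
  decide +kernel

set_option maxRecDepth 100000 in
theorem upTabU100B3Nodes1 : upTabU100B3Item1.check upTabU100B3.K = true := by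
  decide +kernel

set_option maxRecDepth 100000 in
theorem upTabU100B3Nodes2 : upTabU100B3Item2.check upTabU100B3.K = true := by
  decide +kernel

set_option maxRecDepth 100000 in
theorem upTabU100B3Nodes3 : upTabU100B3Item3.check upTabU100B3.K = true := by
  decide +kernel

set_option maxRecDepth 100000 in
theorem upTabU100B3Cover : upCover upTabU100B3.n₁ upTabU100B3.n₀ [upTabU100B3Item0, upTabU100B3Item1, upTabU100B3Item2, upTabU100B3Item3] = true := by
  decide +kernel

set_option maxRecDepth 100000 in
theorem upTabU100B3Base : upTabU100B3.baseOK = true := by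
  decide +kernel

theorem upTabU100B3_valid :
    upTabU100B3.baseOK = true ∧ upTabU100B3.polyOK = true ∧ upTabU100B3.envOK = true := by
  refine ⟨upTabU100B3Base, ?_, ?_⟩
  · simp only [UpData.polyOK, show upTabU100B3.cells = upTabU100B3Cells0 ++ upTabU100B3Cells1 ++ upTabU100B3Cells2 ++ upTabU100B3Cells3 ++ upTabU100B3Cells4 ++ upTabU100B3Cells5 ++ upTabU100B3Cells6 ++ upTabU100B3Cells7 ++ upTabU100B3Cells8 ++ upTabU100B3Cells9 ++ upTabU100B3Cells10 ++ upTabU100B3Cells11 ++ upTabU100B3Cells12 from rfl, List.all_append, Bool.and_eq_true,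
      upTabU100B3Poly0, upTabU100B3Poly1, upTabU100B3Poly2, upTabU100B3Poly3, upTabU100B3Poly4, upTabU100B3Poly5, upTabU100B3Poly6, upTabU100B3Poly7, upTabU100B3Poly8, upTabU100B3Poly9, upTabU100B3Poly10, upTabU100B3Poly11, upTabU100B3Poly12, and_self]
  · simp only [UpData.envOK, show upTabU100B3.cells = upTabU100B3Cells0 ++ upTabU100B3Cells1 ++ upTabU100B3Cells2 ++ upTabU100B3Cells3 ++ upTabU100B3Cells4 ++ upTabU100B3Cells5 ++ upTabU100B3Cells6 ++ upTabU100B3Cells7 ++ upTabU100B3Cells8 ++ upTabU100B3Cells9 ++ upTabU100B3Cells10 ++ upTabU100B3Cells11 ++ upTabU100B3Cells12 from rfl, List.all_append, Bool.and_eq_true,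
      show upTabU100B3.items = upTabU100B3Items from rfl, upTabU100B3Items, List.all_cons, List.all_nil, Bool.and_true,
      upTabU100B3Cover,
      upTabU100B3Nodes0, upTabU100B3Nodes1, upTabU100B3Nodes2, upTabU100B3Nodes3, upTabU100B3Env0, upTabU100B3Env1, upTabU100B3Env2, upTabU100B3Env3, upTabU100B3Env4, upTabU100B3Env5, upTabU100B3Env6, upTabU100B3Env7, upTabU100B3Env8, upTabU100B3Env9, upTabU100B3Env10, upTabU100B3Env11, upTabU100B3Env12, and_self]

end Vale.Agent.P237.Quant
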