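import Vale.Agent.P237.Quant.LinearUpperTables.Q0Poly
import Vale.Agent.P237.Quant.LinearUpperTables.Q0EnvA
import Vale.Agent.P237.Quant.LinearUpperTables.Q0EnvB
import Vale.Agent.P237.Quant.LinearUpperTables.Q0EnvC
import Vale.Agent.P237.Quant.LinearUpperTables.Q0NodesA
import Vale.Agent.P237.Quant.LinearUpperTables.Q0NodesB

/-!
Checked tables of the upper bound of the linear term: Q bin 0: the base, the cover and validity.
-/

set_option linter.all false

namespace Vale.Agent.P237.Quant

set_option maxRecDepth 100000 in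
theorem upTabQB0_base :
    upTabQB0.baseOK = true := by
  decide +kernel

set_option maxRecDepth 100000 in
theorem upTabQB0_cover :
    upCover upTabQB0.n₁ upTabQB0.n₀ upTabQB0.items = true := by
  decide +kernel

theorem upTabQB0_head :
    upTabQB0.baseOK = true ∧ upCover upTabQB0.n₁ upTabQB0.n₀ upTabQB0.items = true ∧
      (upTabQB0.items.all fun I => I.check upTabQB0.K) = true := by
  refine ⟨upTabQB0_base, upTabQB0_cover, ?_⟩
  have h : upTabQB0.items = (upTabQB0.items.drop 0).take 4 ++ (upTabQB0.items.drop 4).take 1 := rfl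
  rw [h]
  simp only [List.all_append, upTabQB0_nodes0, upTabQB0_nodes4, Bool.and_self]

theorem upTabQB0_valid :
    upTabQB0.baseOK = true ∧ upTabQB0.polyOK = true ∧ upTabQB0.envOK = true := by
  obtain ⟨hb, hc, hi⟩ := upTabQB0_head
  have h : upTabQB0.cells = upTabQB0Cells0 ++ upTabQB0Cells1 ++ upTabQB0Cells2 ++ upTabQB0Cells3 ++ upTabQB0Cells4 ++ upTabQB0Cells5 ++ upTabQB0Cells6 ++ upTabQB0Cells7 := rfl
  refine ⟨hb, ?_, ?_⟩
  · simp only [UpData.polyOK, h, List.all_append, upTabQB0_poly0, upTabQB0_poly1, upTabQB0_poly2, upTabQB0_poly3, upTabQB0_poly4, upTabQB0_poly5, upTabQB0_poly6, upTabQB0_poly7, Bool.and_self]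
  · simp only [UpData.envOK, hc, hi, h, List.all_append, upTabQB0_env0, upTabQB0_env1, upTabQB0_env2, upTabQB0_env3, upTabQB0_env4, upTabQB0_env5, upTabQB0_env6, upTabQB0_env7, Bool.and_self]

end Vale.Agent.P237.Quant
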