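import Vale.Agent.P237.Quant.LinearUpperTables.Q1Poly
import Vale.Agent.P237.Quant.LinearUpperTables.Q1EnvA
import Vale.Agent.P237.Quant.LinearUpperTables.Q1EnvB
import Vale.Agent.P237.Quant.LinearUpperTables.Q1EnvC
import Vale.Agent.P237.Quant.LinearUpperTables.Q1NodesA
import Vale.Agent.P237.Quant.LinearUpperTables.Q1NodesB

/-!
Checked tables of the upper bound of the linear term: Q bin 1: the base, the cover and validity.
-/

set_option linter.all false

namespace Vale.Agent.P237.Quant

set_option maxRecDepth 100000 in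
theorem upTabQB1_base :
    upTabQB1.baseOK = true := by
  decide +kernel

set_option maxRecDepth 100000 in
theorem upTabQB1_cover :
    upCover upTabQB1.n₁ upTabQB1.n₀ upTabQB1.items = true := by
  decide +kernel

theorem upTabQB1_head :
    upTabQB1.baseOK = true ∧ upCover upTabQB1.n₁ upTabQB1.n₀ upTabQB1.items = true ∧
      (upTabQB1.items.all fun I => I.check upTabQB1.K) = true := by
  refine ⟨upTabQB1_base, upTabQB1_cover, ?_⟩
  have h : upTabQB1.items = (upTabQB1.items.drop 0).take 4 ++ (upTabQB1.items.drop 4).take 1 := rfl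
  rw [h]
  simp only [List.all_append, upTabQB1_nodes0, upTabQB1_nodes4, Bool.and_self]

theorem upTabQB1_valid :
    upTabQB1.baseOK = true ∧ upTabQB1.polyOK = true ∧ upTabQB1.envOK = true := by
  obtain ⟨hb, hc, hi⟩ := upTabQB1_head
  have h : upTabQB1.cells = upTabQB1Cells0 ++ upTabQB1Cells1 ++ upTabQB1Cells2 ++ upTabQB1Cells3 ++ upTabQB1Cells4 ++ upTabQB1Cells5 ++ upTabQB1Cells6 := rfl
  refine ⟨hb, ?_, ?_⟩
  · simp only [UpData.polyOK, h, List.all_append, upTabQB1_poly0, upTabQB1_poly1, upTabQB1_poly2, upTabQB1_poly3, upTabQB1_poly4, upTabQB1_poly5, upTabQB1_poly6, Bool.and_self]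
  · simp only [UpData.envOK, hc, hi, h, List.all_append, upTabQB1_env0, upTabQB1_env1, upTabQB1_env2, upTabQB1_env3, upTabQB1_env4, upTabQB1_env5, upTabQB1_env6, Bool.and_self]

end Vale.Agent.P237.Quant
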