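import Vale.Agent.P237.Quant.LinearUpperTables.Q2Poly
import Vale.Agent.P237.Quant.LinearUpperTables.Q2EnvA
import Vale.Agent.P237.Quant.LinearUpperTables.Q2EnvB
import Vale.Agent.P237.Quant.LinearUpperTables.Q2EnvC
import Vale.Agent.P237.Quant.LinearUpperTables.Q2NodesA
import Vale.Agent.P237.Quant.LinearUpperTables.Q2NodesB

/-!
Checked tables of the upper bound of the linear term: Q bin 2: the base, the cover and validity.
-/

set_option linter.all false

namespace Vale.Agent.P237.Quant

set_option maxRecDepth 100000 in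
theorem upTabQB2_base :
    upTabQB2.baseOK = true := by
  decide +kernel

set_option maxRecDepth 100000 in
theorem upTabQB2_cover :
    upCover upTabQB2.n₁ upTabQB2.n₀ upTabQB2.items = true := by
  decide +kernel

theorem upTabQB2_head :
    upTabQB2.baseOK = true ∧ upCover upTabQB2.n₁ upTabQB2.n₀ upTabQB2.items = true ∧
      (upTabQB2.items.all fun I => I.check upTabQB2.K) = true := by
  refine ⟨upTabQB2_base, upTabQB2_cover, ?_⟩
  have h : upTabQB2.items = (upTabQB2.items.drop 0).take 4 ++ (upTabQB2.items.drop 4).take 1 := rfl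
  rw [h]
  simp only [List.all_append, upTabQB2_nodes0, upTabQB2_nodes4, Bool.and_self]

theorem upTabQB2_valid :
    upTabQB2.baseOK = true ∧ upTabQB2.polyOK = true ∧ upTabQB2.envOK = true := by
  obtain ⟨hb, hc, hi⟩ := upTabQB2_head
  have h : upTabQB2.cells = upTabQB2Cells0 ++ upTabQB2Cells1 ++ upTabQB2Cells2 ++ upTabQB2Cells3 ++ upTabQB2Cells4 ++ upTabQB2Cells5 ++ upTabQB2Cells6 := rfl
  refine ⟨hb, ?_, ?_⟩
  · simp only [UpData.polyOK, h, List.all_append, upTabQB2_poly0, upTabQB2_poly1, upTabQB2_poly2, upTabQB2_poly3, upTabQB2_poly4, upTabQB2_poly5, upTabQB2_poly6, Bool.and_self]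
  · simp only [UpData.envOK, hc, hi, h, List.all_append, upTabQB2_env0, upTabQB2_env1, upTabQB2_env2, upTabQB2_env3, upTabQB2_env4, upTabQB2_env5, upTabQB2_env6, Bool.and_self]

end Vale.Agent.P237.Quant
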