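import Vale.Agent.P237.Quant.LinearUpperTables.Q3Poly
import Vale.Agent.P237.Quant.LinearUpperTables.Q3EnvA
import Vale.Agent.P237.Quant.LinearUpperTables.Q3EnvB
import Vale.Agent.P237.Quant.LinearUpperTables.Q3EnvC
import Vale.Agent.P237.Quant.LinearUpperTables.Q3NodesA
import Vale.Agent.P237.Quant.LinearUpperTables.Q3NodesB

/-!
Checked tables of the upper bound of the linear term: Q bin 3: the base, the cover and validity.
-/

set_option linter.all false

namespace Vale.Agent.P237.Quant

set_option maxRecDepth 100000 in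
theorem upTabQB3_base :
    upTabQB3.baseOK = true := by
  decide +kernel

set_option maxRecDepth 100000 in
theorem upTabQB3_cover :
    upCover upTabQB3.n₁ upTabQB3.n₀ upTabQB3.items = true := by
  decide +kernel

theorem upTabQB3_head :
    upTabQB3.baseOK = true ∧ upCover upTabQB3.n₁ upTabQB3.n₀ upTabQB3.items = true ∧
      (upTabQB3.items.all fun I => I.check upTabQB3.K) = true := by
  refine ⟨upTabQB3_base, upTabQB3_cover, ?_⟩
  have h : upTabQB3.items = (upTabQB3.items.drop 0).take 4 ++ (upTabQB3.items.drop 4).take 1 := rfl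
  rw [h]
  simp only [List.all_append, upTabQB3_nodes0, upTabQB3_nodes4, Bool.and_self]

theorem upTabQB3_valid :
    upTabQB3.baseOK = true ∧ upTabQB3.polyOK = true ∧ upTabQB3.envOK = true := by
  obtain ⟨hb, hc, hi⟩ := upTabQB3_head
  have h : upTabQB3.cells = upTabQB3Cells0 ++ upTabQB3Cells1 ++ upTabQB3Cells2 ++ upTabQB3Cells3 ++ upTabQB3Cells4 ++ upTabQB3Cells5 ++ upTabQB3Cells6 ++ upTabQB3Cells7 := rfl
  refine ⟨hb, ?_, ?_⟩
  · simp only [UpData.polyOK, h, List.all_append, upTabQB3_poly0, upTabQB3_poly1, upTabQB3_poly2, upTabQB3_poly3, upTabQB3_poly4, upTabQB3_poly5, upTabQB3_poly6, upTabQB3_poly7, Bool.and_self]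
  · simp only [UpData.envOK, hc, hi, h, List.all_append, upTabQB3_env0, upTabQB3_env1, upTabQB3_env2, upTabQB3_env3, upTabQB3_env4, upTabQB3_env5, upTabQB3_env6, upTabQB3_env7, Bool.and_self]

end Vale.Agent.P237.Quant
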