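import Vale.Agent.P237.Quant.LinearUpperTables.Q4Poly
import Vale.Agent.P237.Quant.LinearUpperTables.Q4EnvA
import Vale.Agent.P237.Quant.LinearUpperTables.Q4EnvB
import Vale.Agent.P237.Quant.LinearUpperTables.Q4EnvC
import Vale.Agent.P237.Quant.LinearUpperTables.Q4NodesA
import Vale.Agent.P237.Quant.LinearUpperTables.Q4NodesB

/-!
Checked tables of the upper bound of the linear term: Q bin 4: the base, the cover and validity.
-/

set_option linter.all false

namespace Vale.Agent.P237.Quant

set_option maxRecDepth 100000 in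
theorem upTabQB4_base :
    upTabQB4.baseOK = true := by
  decide +kernel

set_option maxRecDepth 100000 in
theorem upTabQB4_cover :
    upCover upTabQB4.n₁ upTabQB4.n₀ upTabQB4.items = true := by
  decide +kernel

theorem upTabQB4_head :
    upTabQB4.baseOK = true ∧ upCover upTabQB4.n₁ upTabQB4.n₀ upTabQB4.items = true ∧
      (upTabQB4.items.all fun I => I.check upTabQB4.K) = true := by
  refine ⟨upTabQB4_base, upTabQB4_cover, ?_⟩
  have h : upTabQB4.items = (upTabQB4.items.drop 0).take 4 ++ (upTabQB4.items.drop 4).take 1 := rfl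
  rw [h]
  simp only [List.all_append, upTabQB4_nodes0, upTabQB4_nodes4, Bool.and_self]

theorem upTabQB4_valid :
    upTabQB4.baseOK = true ∧ upTabQB4.polyOK = true ∧ upTabQB4.envOK = true := by
  obtain ⟨hb, hc, hi⟩ := upTabQB4_head
  have h : upTabQB4.cells = upTabQB4Cells0 ++ upTabQB4Cells1 ++ upTabQB4Cells2 ++ upTabQB4Cells3 ++ upTabQB4Cells4 ++ upTabQB4Cells5 ++ upTabQB4Cells6 ++ upTabQB4Cells7 := rfl
  refine ⟨hb, ?_, ?_⟩
  · simp only [UpData.polyOK, h, List.all_append, upTabQB4_poly0, upTabQB4_poly1, upTabQB4_poly2, upTabQB4_poly3, upTabQB4_poly4, upTabQB4_poly5, upTabQB4_poly6, upTabQB4_poly7, Bool.and_self]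
  · simp only [UpData.envOK, hc, hi, h, List.all_append, upTabQB4_env0, upTabQB4_env1, upTabQB4_env2, upTabQB4_env3, upTabQB4_env4, upTabQB4_env5, upTabQB4_env6, upTabQB4_env7, Bool.and_self]

end Vale.Agent.P237.Quant
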