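import Vale.Agent.P237.Quant.LinearUpperTables.Q5Poly
import Vale.Agent.P237.Quant.LinearUpperTables.Q5EnvA
import Vale.Agent.P237.Quant.LinearUpperTables.Q5EnvB
import Vale.Agent.P237.Quant.LinearUpperTables.Q5EnvC
import Vale.Agent.P237.Quant.LinearUpperTables.Q5NodesA
import Vale.Agent.P237.Quant.LinearUpperTables.Q5NodesB

/-!
Checked tables of the upper bound of the linear term: Q bin 5: the base, the cover and validity.
-/

set_option linter.all false

namespace Vale.Agent.P237.Quant

set_option maxRecDepth 100000 in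
theorem upTabQB5_base :
    upTabQB5.baseOK = true := by
  decide +kernel

set_option maxRecDepth 100000 in
theorem upTabQB5_cover :
    upCover upTabQB5.n₁ upTabQB5.n₀ upTabQB5.items = true := by
  decide +kernel

theorem upTabQB5_head :
    upTabQB5.baseOK = true ∧ upCover upTabQB5.n₁ upTabQB5.n₀ upTabQB5.items = true ∧
      (upTabQB5.items.all fun I => I.check upTabQB5.K) = true := by
  refine ⟨upTabQB5_base, upTabQB5_cover, ?_⟩
  have h : upTabQB5.items = (upTabQB5.items.drop 0).take 4 ++ (upTabQB5.items.drop 4).take 1 := rfl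
  rw [h]
  simp only [List.all_append, upTabQB5_nodes0, upTabQB5_nodes4, Bool.and_self]

theorem upTabQB5_valid :
    upTabQB5.baseOK = true ∧ upTabQB5.polyOK = true ∧ upTabQB5.envOK = true := by
  obtain ⟨hb, hc, hi⟩ := upTabQB5_head
  have h : upTabQB5.cells = upTabQB5Cells0 ++ upTabQB5Cells1 ++ upTabQB5Cells2 ++ upTabQB5Cells3 ++ upTabQB5Cells4 ++ upTabQB5Cells5 ++ upTabQB5Cells6 := rfl
  refine ⟨hb, ?_, ?_⟩
  · simp only [UpData.polyOK, h, List.all_append, upTabQB5_poly0, upTabQB5_poly1, upTabQB5_poly2, upTabQB5_poly3, upTabQB5_poly4, upTabQB5_poly5, upTabQB5_poly6, Bool.and_self]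
  · simp only [UpData.envOK, hc, hi, h, List.all_append, upTabQB5_env0, upTabQB5_env1, upTabQB5_env2, upTabQB5_env3, upTabQB5_env4, upTabQB5_env5, upTabQB5_env6, Bool.and_self]

end Vale.Agent.P237.Quant
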