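import Vale.Agent.P237.Quant.LinearUpperTables.Q6Poly
import Vale.Agent.P237.Quant.LinearUpperTables.Q6EnvA
import Vale.Agent.P237.Quant.LinearUpperTables.Q6EnvB
import Vale.Agent.P237.Quant.LinearUpperTables.Q6EnvC
import Vale.Agent.P237.Quant.LinearUpperTables.Q6NodesA
import Vale.Agent.P237.Quant.LinearUpperTables.Q6NodesB

/-!
Checked tables of the upper bound of the linear term: Q bin 6: the base, the cover and validity.
-/

set_option linter.all false

namespace Vale.Agent.P237.Quant

set_option maxRecDepth 100000 in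
theorem upTabQB6_base :
    upTabQB6.baseOK = true := by
  decide +kernel

set_option maxRecDepth 100000 in
theorem upTabQB6_cover :
    upCover upTabQB6.n₁ upTabQB6.n₀ upTabQB6.items = true := by
  decide +kernel

theorem upTabQB6_head :
    upTabQB6.baseOK = true ∧ upCover upTabQB6.n₁ upTabQB6.n₀ upTabQB6.items = true ∧
      (upTabQB6.items.all fun I => I.check upTabQB6.K) = true := by
  refine ⟨upTabQB6_base, upTabQB6_cover, ?_⟩
  have h : upTabQB6.items = (upTabQB6.items.drop 0).take 4 ++ (upTabQB6.items.drop 4).take 1 := rfl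
  rw [h]
  simp only [List.all_append, upTabQB6_nodes0, upTabQB6_nodes4, Bool.and_self]

theorem upTabQB6_valid :
    upTabQB6.baseOK = true ∧ upTabQB6.polyOK = true ∧ upTabQB6.envOK = true := by
  obtain ⟨hb, hc, hi⟩ := upTabQB6_head
  have h : upTabQB6.cells = upTabQB6Cells0 ++ upTabQB6Cells1 ++ upTabQB6Cells2 ++ upTabQB6Cells3 ++ upTabQB6Cells4 ++ upTabQB6Cells5 ++ upTabQB6Cells6 := rfl
  refine ⟨hb, ?_, ?_⟩
  · simp only [UpData.polyOK, h, List.all_append, upTabQB6_poly0, upTabQB6_poly1, upTabQB6_poly2, upTabQB6_poly3, upTabQB6_poly4, upTabQB6_poly5, upTabQB6_poly6, Bool.and_self]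
  · simp only [UpData.envOK, hc, hi, h, List.all_append, upTabQB6_env0, upTabQB6_env1, upTabQB6_env2, upTabQB6_env3, upTabQB6_env4, upTabQB6_env5, upTabQB6_env6, Bool.and_self]

end Vale.Agent.P237.Quant
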