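import Vale.Agent.P237.Quant.LinearUpperTables.R0Poly
import Vale.Agent.P237.Quant.LinearUpperTables.R0EnvA
import Vale.Agent.P237.Quant.LinearUpperTables.R0EnvB
import Vale.Agent.P237.Quant.LinearUpperTables.R0EnvC
import Vale.Agent.P237.Quant.LinearUpperTables.R0EnvD
import Vale.Agent.P237.Quant.LinearUpperTables.R0EnvE
import Vale.Agent.P237.Quant.LinearUpperTables.R0NodesA
import Vale.Agent.P237.Quant.LinearUpperTables.R0NodesB
import Vale.Agent.P237.Quant.LinearUpperTables.R0NodesC

/-!
Checked tables of the upper bound of the linear term: R bin 0: the base, the cover and validity.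
-/

set_option linter.all false

namespace Vale.Agent.P237.Quant

set_option maxRecDepth 100000 in
theorem upTabRB0_base :
    upTabRB0.baseOK = true := by
  decide +kernel

set_option maxRecDepth 100000 in
theorem upTabRB0_cover :
    upCover upTabRB0.n₁ upTabRB0.n₀ upTabRB0.items = true := by
  decide +kernel

theorem upTabRB0_head :
    upTabRB0.baseOK = true ∧ upCover upTabRB0.n₁ upTabRB0.n₀ upTabRB0.items = true ∧
      (upTabRB0.items.all fun I => I.check upTabRB0.K) = true := by
  refine ⟨upTabRB0_base, upTabRB0_cover, ?_⟩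
  have h : upTabRB0.items = (upTabRB0.items.drop 0).take 4 ++ (upTabRB0.items.drop 4).take 4 ++ (upTabRB0.items.drop 8).take 3 := rfl
  rw [h]
  simp only [List.all_append, upTabRB0_nodes0, upTabRB0_nodes4, upTabRB0_nodes8, Bool.and_self]

theorem upTabRB0_env1 :
    (upTabRB0Cells1.all fun c => c.envOK upTabRB0) = true := by
  rw [← List.take_append_drop 5 upTabRB0Cells1, List.all_append, upTabRB0_env1a, upTabRB0_env1b, Bool.and_self]

theorem upTabRB0_valid :
    upTabRB0.baseOK = true ∧ upTabRB0.polyOK = true ∧ upTabRB0.envOK = true := by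
  obtain ⟨hb, hc, hi⟩ := upTabRB0_head
  have h : upTabRB0.cells = upTabRB0Cells0 ++ upTabRB0Cells1 ++ upTabRB0Cells2 ++ upTabRB0Cells3 ++ upTabRB0Cells4 ++ upTabRB0Cells5 ++ upTabRB0Cells6 ++ upTabRB0Cells7 := rfl
  refine ⟨hb, ?_, ?_⟩
  · simp only [UpData.polyOK, h, List.all_append, upTabRB0_poly0, upTabRB0_poly1, upTabRB0_poly2, upTabRB0_poly3, upTabRB0_poly4, upTabRB0_poly5, upTabRB0_poly6, upTabRB0_poly7, Bool.and_self]
  · simp only [UpData.envOK, hc, hi, h, List.all_append, upTabRB0_env0, upTabRB0_env1, upTabRB0_env2, upTabRB0_env3, upTabRB0_env4, upTabRB0_env5, upTabRB0_env6, upTabRB0_env7, Bool.and_self]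

end Vale.Agent.P237.Quant
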