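import Vale.Agent.P237.Quant.LinearUpperTables.R1Poly
import Vale.Agent.P237.Quant.LinearUpperTables.R1EnvA
import Vale.Agent.P237.Quant.LinearUpperTables.R1EnvB
import Vale.Agent.P237.Quant.LinearUpperTables.R1EnvC
import Vale.Agent.P237.Quant.LinearUpperTables.R1EnvD
import Vale.Agent.P237.Quant.LinearUpperTables.R1EnvE
import Vale.Agent.P237.Quant.LinearUpperTables.R1NodesA
import Vale.Agent.P237.Quant.LinearUpperTables.R1NodesB
import Vale.Agent.P237.Quant.LinearUpperTables.R1NodesC

/-!
Checked tables of the upper bound of the linear term: R bin 1: the base, the cover and validity.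
-/

set_option linter.all false

namespace Vale.Agent.P237.Quant

set_option maxRecDepth 100000 in
theorem upTabRB1_base :
    upTabRB1.baseOK = true := by
  decide +kernel

set_option maxRecDepth 100000 in
theorem upTabRB1_cover :
    upCover upTabRB1.n₁ upTabRB1.n₀ upTabRB1.items = true := by
  decide +kernel

theorem upTabRB1_head :
    upTabRB1.baseOK = true ∧ upCover upTabRB1.n₁ upTabRB1.n₀ upTabRB1.items = true ∧
      (upTabRB1.items.all fun I => I.check upTabRB1.K) = true := by
  refine ⟨upTabRB1_base, upTabRB1_cover, ?_⟩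
  have h : upTabRB1.items = (upTabRB1.items.drop 0).take 4 ++ (upTabRB1.items.drop 4).take 4 ++ (upTabRB1.items.drop 8).take 3 := rfl
  rw [h]
  simp only [List.all_append, upTabRB1_nodes0, upTabRB1_nodes4, upTabRB1_nodes8, Bool.and_self]

theorem upTabRB1_env1 :
    (upTabRB1Cells1.all fun c => c.envOK upTabRB1) = true := by
  rw [← List.take_append_drop 5 upTabRB1Cells1, List.all_append, upTabRB1_env1a, upTabRB1_env1b, Bool.and_self]

theorem upTabRB1_valid :
    upTabRB1.baseOK = true ∧ upTabRB1.polyOK = true ∧ upTabRB1.envOK = true := by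
  obtain ⟨hb, hc, hi⟩ := upTabRB1_head
  have h : upTabRB1.cells = upTabRB1Cells0 ++ upTabRB1Cells1 ++ upTabRB1Cells2 ++ upTabRB1Cells3 ++ upTabRB1Cells4 ++ upTabRB1Cells5 ++ upTabRB1Cells6 ++ upTabRB1Cells7 := rfl
  refine ⟨hb, ?_, ?_⟩
  · simp only [UpData.polyOK, h, List.all_append, upTabRB1_poly0, upTabRB1_poly1, upTabRB1_poly2, upTabRB1_poly3, upTabRB1_poly4, upTabRB1_poly5, upTabRB1_poly6, upTabRB1_poly7, Bool.and_self]
  · simp only [UpData.envOK, hc, hi, h, List.all_append, upTabRB1_env0, upTabRB1_env1, upTabRB1_env2, upTabRB1_env3, upTabRB1_env4, upTabRB1_env5, upTabRB1_env6, upTabRB1_env7, Bool.and_self]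

end Vale.Agent.P237.Quant
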