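import Vale.Agent.P237.Quant.LinearUpperTables.R3Data

/-!
Checked tables of the upper bound of the linear term: R bin 3: the envelope checks.
-/

set_option linter.all false

namespace Vale.Agent.P237.Quant

set_option maxRecDepth 100000 in
theorem upTabRB3_env3 :
    (upTabRB3Cells3.all fun c => c.envOK upTabRB3) = true := by
  decide +kernel

set_option maxRecDepth 100000 in
theorem upTabRB3_env4 :
    (upTabRB3Cells4.all fun c => c.envOK upTabRB3) = true := by
  decide +kernel

set_option maxRecDepth 100000 in
theorem upTabRB3_env5 :
    (upTabRB3Cells5.all fun c => c.envOK upTabRB3) = true := by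
  decide +kernel

set_option maxRecDepth 100000 in
theorem upTabRB3_env6 :
    (upTabRB3Cells6.all fun c => c.envOK upTabRB3) = true := by
  decide +kernel

set_option maxRecDepth 100000 in
theorem upTabRB3_env7 :
    (upTabRB3Cells7.all fun c => c.envOK upTabRB3) = true := by
  decide +kernel

end Vale.Agent.P237.Quant
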