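import Vale.Agent.P237.Quant.LinearUpperTables.R3Poly
import Vale.Agent.P237.Quant.LinearUpperTables.R3EnvA
import Vale.Agent.P237.Quant.LinearUpperTables.R3EnvB
import Vale.Agent.P237.Quant.LinearUpperTables.R3EnvC
import Vale.Agent.P237.Quant.LinearUpperTables.R3EnvD
import Vale.Agent.P237.Quant.LinearUpperTables.R3EnvE
import Vale.Agent.P237.Quant.LinearUpperTables.R3NodesA
import Vale.Agent.P237.Quant.LinearUpperTables.R3NodesB
import Vale.Agent.P237.Quant.LinearUpperTables.R3NodesC

/-!
Checked tables of the upper bound of the linear term: R bin 3: the base, the cover and validity.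
-/

set_option linter.all false

namespace Vale.Agent.P237.Quant

set_option maxRecDepth 100000 in
theorem upTabRB3_base :
    upTabRB3.baseOK = true := by
  decide +kernel

set_option maxRecDepth 100000 in
theorem upTabRB3_cover :
    upCover upTabRB3.n₁ upTabRB3.n₀ upTabRB3.items = true := by
  decide +kernel

theorem upTabRB3_head :
    upTabRB3.baseOK = true ∧ upCover upTabRB3.n₁ upTabRB3.n₀ upTabRB3.items = true ∧
      (upTabRB3.items.all fun I => I.check upTabRB3.K) = true := by
  refine ⟨upTabRB3_base, upTabRB3_cover, ?_⟩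
  have h : upTabRB3.items = (upTabRB3.items.drop 0).take 4 ++ (upTabRB3.items.drop 4).take 4 ++ (upTabRB3.items.drop 8).take 3 := rfl
  rw [h]
  simp only [List.all_append, upTabRB3_nodes0, upTabRB3_nodes4, upTabRB3_nodes8, Bool.and_self]

theorem upTabRB3_env1 :
    (upTabRB3Cells1.all fun c => c.envOK upTabRB3) = true := by
  rw [← List.take_append_drop 5 upTabRB3Cells1, List.all_append, upTabRB3_env1a, upTabRB3_env1b, Bool.and_self]

theorem upTabRB3_valid :
    upTabRB3.baseOK = true ∧ upTabRB3.polyOK = true ∧ upTabRB3.envOK = true := by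
  obtain ⟨hb, hc, hi⟩ := upTabRB3_head
  have h : upTabRB3.cells = upTabRB3Cells0 ++ upTabRB3Cells1 ++ upTabRB3Cells2 ++ upTabRB3Cells3 ++ upTabRB3Cells4 ++ upTabRB3Cells5 ++ upTabRB3Cells6 ++ upTabRB3Cells7 := rfl
  refine ⟨hb, ?_, ?_⟩
  · simp only [UpData.polyOK, h, List.all_append, upTabRB3_poly0, upTabRB3_poly1, upTabRB3_poly2, upTabRB3_poly3, upTabRB3_poly4, upTabRB3_poly5, upTabRB3_poly6, upTabRB3_poly7, Bool.and_self]
  · simp only [UpData.envOK, hc, hi, h, List.all_append, upTabRB3_env0, upTabRB3_env1, upTabRB3_env2, upTabRB3_env3, upTabRB3_env4, upTabRB3_env5, upTabRB3_env6, upTabRB3_env7, Bool.and_self]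

end Vale.Agent.P237.Quant
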