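import Vale.Agent.P237.Quant.LinearUpperTables.R4Data

/-!
Checked tables of the upper bound of the linear term: R bin 4: the envelope checks.
-/

set_option linter.all false

namespace Vale.Agent.P237.Quant

set_option maxRecDepth 100000 in
theorem upTabRB4_env1b :
    ((upTabRB4Cells1.drop 5).all fun c => c.envOK upTabRB4) = true := by
  decide +kernel

end Vale.Agent.P237.Quant
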