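import Vale.Agent.P237.Quant.LinearUpperTables.R4Poly
import Vale.Agent.P237.Quant.LinearUpperTables.R4EnvA
import Vale.Agent.P237.Quant.LinearUpperTables.R4EnvB
import Vale.Agent.P237.Quant.LinearUpperTables.R4EnvC
import Vale.Agent.P237.Quant.LinearUpperTables.R4EnvD
import Vale.Agent.P237.Quant.LinearUpperTables.R4EnvE
import Vale.Agent.P237.Quant.LinearUpperTables.R4NodesA
import Vale.Agent.P237.Quant.LinearUpperTables.R4NodesB
import Vale.Agent.P237.Quant.LinearUpperTables.R4NodesC

/-!
Checked tables of the upper bound of the linear term: R bin 4: the base, the cover and validity.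
-/

set_option linter.all false

namespace Vale.Agent.P237.Quant

set_option maxRecDepth 100000 in
theorem upTabRB4_base :
    upTabRB4.baseOK = true := by
  decide +kernel

set_option maxRecDepth 100000 in
theorem upTabRB4_cover :
    upCover upTabRB4.n₁ upTabRB4.n₀ upTabRB4.items = true := by
  decide +kernel

theorem upTabRB4_head :
    upTabRB4.baseOK = true ∧ upCover upTabRB4.n₁ upTabRB4.n₀ upTabRB4.items = true ∧
      (upTabRB4.items.all fun I => I.check upTabRB4.K) = true := by
  refine ⟨upTabRB4_base, upTabRB4_cover, ?_⟩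
  have h : upTabRB4.items = (upTabRB4.items.drop 0).take 4 ++ (upTabRB4.items.drop 4).take 4 ++ (upTabRB4.items.drop 8).take 3 := rfl
  rw [h]
  simp only [List.all_append, upTabRB4_nodes0, upTabRB4_nodes4, upTabRB4_nodes8, Bool.and_self]

theorem upTabRB4_env1 :
    (upTabRB4Cells1.all fun c => c.envOK upTabRB4) = true := by
  rw [← List.take_append_drop 5 upTabRB4Cells1, List.all_append, upTabRB4_env1a, upTabRB4_env1b, Bool.and_self]

theorem upTabRB4_valid :
    upTabRB4.baseOK = true ∧ upTabRB4.polyOK = true ∧ upTabRB4.envOK = true := by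
  obtain ⟨hb, hc, hi⟩ := upTabRB4_head
  have h : upTabRB4.cells = upTabRB4Cells0 ++ upTabRB4Cells1 ++ upTabRB4Cells2 ++ upTabRB4Cells3 ++ upTabRB4Cells4 ++ upTabRB4Cells5 ++ upTabRB4Cells6 ++ upTabRB4Cells7 := rfl
  refine ⟨hb, ?_, ?_⟩
  · simp only [UpData.polyOK, h, List.all_append, upTabRB4_poly0, upTabRB4_poly1, upTabRB4_poly2, upTabRB4_poly3, upTabRB4_poly4, upTabRB4_poly5, upTabRB4_poly6, upTabRB4_poly7, Bool.and_self]
  · simp only [UpData.envOK, hc, hi, h, List.all_append, upTabRB4_env0, upTabRB4_env1, upTabRB4_env2, upTabRB4_env3, upTabRB4_env4, upTabRB4_env5, upTabRB4_env6, upTabRB4_env7, Bool.and_self]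

end Vale.Agent.P237.Quant
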