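import Vale.Agent.P237.Quant.LinearUpperTables.R5Poly
import Vale.Agent.P237.Quant.LinearUpperTables.R5EnvA
import Vale.Agent.P237.Quant.LinearUpperTables.R5EnvB
import Vale.Agent.P237.Quant.LinearUpperTables.R5EnvC
import Vale.Agent.P237.Quant.LinearUpperTables.R5EnvD
import Vale.Agent.P237.Quant.LinearUpperTables.R5EnvE
import Vale.Agent.P237.Quant.LinearUpperTables.R5NodesA
import Vale.Agent.P237.Quant.LinearUpperTables.R5NodesB
import Vale.Agent.P237.Quant.LinearUpperTables.R5NodesC

/-!
Checked tables of the upper bound of the linear term: R bin 5: the base, the cover and validity.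
-/

set_option linter.all false

namespace Vale.Agent.P237.Quant

set_option maxRecDepth 100000 in
theorem upTabRB5_base :
    upTabRB5.baseOK = true := by
  decide +kernel

set_option maxRecDepth 100000 in
theorem upTabRB5_cover :
    upCover upTabRB5.n₁ upTabRB5.n₀ upTabRB5.items = true := by
  decide +kernel

theorem upTabRB5_head :
    upTabRB5.baseOK = true ∧ upCover upTabRB5.n₁ upTabRB5.n₀ upTabRB5.items = true ∧
      (upTabRB5.items.all fun I => I.check upTabRB5.K) = true := by
  refine ⟨upTabRB5_base, upTabRB5_cover, ?_⟩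
  have h : upTabRB5.items = (upTabRB5.items.drop 0).take 4 ++ (upTabRB5.items.drop 4).take 4 ++ (upTabRB5.items.drop 8).take 3 := rfl
  rw [h]
  simp only [List.all_append, upTabRB5_nodes0, upTabRB5_nodes4, upTabRB5_nodes8, Bool.and_self]

theorem upTabRB5_env1 :
    (upTabRB5Cells1.all fun c => c.envOK upTabRB5) = true := by
  rw [← List.take_append_drop 5 upTabRB5Cells1, List.all_append, upTabRB5_env1a, upTabRB5_env1b, Bool.and_self]

theorem upTabRB5_valid :
    upTabRB5.baseOK = true ∧ upTabRB5.polyOK = true ∧ upTabRB5.envOK = true := by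
  obtain ⟨hb, hc, hi⟩ := upTabRB5_head
  have h : upTabRB5.cells = upTabRB5Cells0 ++ upTabRB5Cells1 ++ upTabRB5Cells2 ++ upTabRB5Cells3 ++ upTabRB5Cells4 ++ upTabRB5Cells5 ++ upTabRB5Cells6 ++ upTabRB5Cells7 ++ upTabRB5Cells8 := rfl
  refine ⟨hb, ?_, ?_⟩
  · simp only [UpData.polyOK, h, List.all_append, upTabRB5_poly0, upTabRB5_poly1, upTabRB5_poly2, upTabRB5_poly3, upTabRB5_poly4, upTabRB5_poly5, upTabRB5_poly6, upTabRB5_poly7, upTabRB5_poly8, Bool.and_self]
  · simp only [UpData.envOK, hc, hi, h, List.all_append, upTabRB5_env0, upTabRB5_env1, upTabRB5_env2, upTabRB5_env3, upTabRB5_env4, upTabRB5_env5, upTabRB5_env6, upTabRB5_env7, upTabRB5_env8, Bool.and_self]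

end Vale.Agent.P237.Quant
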