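import Vale.Agent.P237.Quant.LinearUpperTables.V0Poly
import Vale.Agent.P237.Quant.LinearUpperTables.V0EnvA
import Vale.Agent.P237.Quant.LinearUpperTables.V0EnvB
import Vale.Agent.P237.Quant.LinearUpperTables.V0EnvC
import Vale.Agent.P237.Quant.LinearUpperTables.V0NodesA
import Vale.Agent.P237.Quant.LinearUpperTables.V0NodesB

/-!
Checked tables of the upper bound of the linear term: V bin 0: the base, the cover and validity.
-/

set_option linter.all false

namespace Vale.Agent.P237.Quant

set_option maxRecDepth 100000 in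
theorem upTabVB0_base :
    upTabVB0.baseOK = true := by
  decide +kernel

set_option maxRecDepth 100000 in
theorem upTabVB0_cover :
    upCover upTabVB0.n₁ upTabVB0.n₀ upTabVB0.items = true := by
  decide +kernel

theorem upTabVB0_head :
    upTabVB0.baseOK = true ∧ upCover upTabVB0.n₁ upTabVB0.n₀ upTabVB0.items = true ∧
      (upTabVB0.items.all fun I => I.check upTabVB0.K) = true := by
  refine ⟨upTabVB0_base, upTabVB0_cover, ?_⟩
  have h : upTabVB0.items = (upTabVB0.items.drop 0).take 4 ++ (upTabVB0.items.drop 4).take 2 := rfl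
  rw [h]
  simp only [List.all_append, upTabVB0_nodes0, upTabVB0_nodes4, Bool.and_self]

theorem upTabVB0_valid :
    upTabVB0.baseOK = true ∧ upTabVB0.polyOK = true ∧ upTabVB0.envOK = true := by
  obtain ⟨hb, hc, hi⟩ := upTabVB0_head
  have h : upTabVB0.cells = upTabVB0Cells0 ++ upTabVB0Cells1 ++ upTabVB0Cells2 ++ upTabVB0Cells3 ++ upTabVB0Cells4 ++ upTabVB0Cells5 := rfl
  refine ⟨hb, ?_, ?_⟩
  · simp only [UpData.polyOK, h, List.all_append, upTabVB0_poly0, upTabVB0_poly1, upTabVB0_poly2, upTabVB0_poly3, upTabVB0_poly4, upTabVB0_poly5, Bool.and_self]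
  · simp only [UpData.envOK, hc, hi, h, List.all_append, upTabVB0_env0, upTabVB0_env1, upTabVB0_env2, upTabVB0_env3, upTabVB0_env4, upTabVB0_env5, Bool.and_self]

end Vale.Agent.P237.Quant
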