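import Vale.Agent.P237.Quant.LinearUpperTables.V1Poly
import Vale.Agent.P237.Quant.LinearUpperTables.V1EnvA
import Vale.Agent.P237.Quant.LinearUpperTables.V1EnvB
import Vale.Agent.P237.Quant.LinearUpperTables.V1EnvC
import Vale.Agent.P237.Quant.LinearUpperTables.V1NodesA
import Vale.Agent.P237.Quant.LinearUpperTables.V1NodesB

/-!
Checked tables of the upper bound of the linear term: V bin 1: the base, the cover and validity.
-/

set_option linter.all false

namespace Vale.Agent.P237.Quant

set_option maxRecDepth 100000 in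
theorem upTabVB1_base :
    upTabVB1.baseOK = true := by
  decide +kernel

set_option maxRecDepth 100000 in
theorem upTabVB1_cover :
    upCover upTabVB1.n₁ upTabVB1.n₀ upTabVB1.items = true := by
  decide +kernel

theorem upTabVB1_head :
    upTabVB1.baseOK = true ∧ upCover upTabVB1.n₁ upTabVB1.n₀ upTabVB1.items = true ∧
      (upTabVB1.items.all fun I => I.check upTabVB1.K) = true := by
  refine ⟨upTabVB1_base, upTabVB1_cover, ?_⟩
  have h : upTabVB1.items = (upTabVB1.items.drop 0).take 4 ++ (upTabVB1.items.drop 4).take 2 := rfl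
  rw [h]
  simp only [List.all_append, upTabVB1_nodes0, upTabVB1_nodes4, Bool.and_self]

theorem upTabVB1_valid :
    upTabVB1.baseOK = true ∧ upTabVB1.polyOK = true ∧ upTabVB1.envOK = true := by
  obtain ⟨hb, hc, hi⟩ := upTabVB1_head
  have h : upTabVB1.cells = upTabVB1Cells0 ++ upTabVB1Cells1 ++ upTabVB1Cells2 ++ upTabVB1Cells3 ++ upTabVB1Cells4 ++ upTabVB1Cells5 := rfl
  refine ⟨hb, ?_, ?_⟩
  · simp only [UpData.polyOK, h, List.all_append, upTabVB1_poly0, upTabVB1_poly1, upTabVB1_poly2, upTabVB1_poly3, upTabVB1_poly4, upTabVB1_poly5, Bool.and_self]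
  · simp only [UpData.envOK, hc, hi, h, List.all_append, upTabVB1_env0, upTabVB1_env1, upTabVB1_env2, upTabVB1_env3, upTabVB1_env4, upTabVB1_env5, Bool.and_self]

end Vale.Agent.P237.Quant
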