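import Vale.Agent.P237.Quant.LinearUpperTables.V2Poly
import Vale.Agent.P237.Quant.LinearUpperTables.V2EnvA
import Vale.Agent.P237.Quant.LinearUpperTables.V2EnvB
import Vale.Agent.P237.Quant.LinearUpperTables.V2EnvC
import Vale.Agent.P237.Quant.LinearUpperTables.V2NodesA
import Vale.Agent.P237.Quant.LinearUpperTables.V2NodesB

/-!
Checked tables of the upper bound of the linear term: V bin 2: the base, the cover and validity.
-/

set_option linter.all false

namespace Vale.Agent.P237.Quant

set_option maxRecDepth 100000 in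
theorem upTabVB2_base :
    upTabVB2.baseOK = true := by
  decide +kernel

set_option maxRecDepth 100000 in
theorem upTabVB2_cover :
    upCover upTabVB2.n₁ upTabVB2.n₀ upTabVB2.items = true := by
  decide +kernel

theorem upTabVB2_head :
    upTabVB2.baseOK = true ∧ upCover upTabVB2.n₁ upTabVB2.n₀ upTabVB2.items = true ∧
      (upTabVB2.items.all fun I => I.check upTabVB2.K) = true := by
  refine ⟨upTabVB2_base, upTabVB2_cover, ?_⟩
  have h : upTabVB2.items = (upTabVB2.items.drop 0).take 4 ++ (upTabVB2.items.drop 4).take 2 := rfl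
  rw [h]
  simp only [List.all_append, upTabVB2_nodes0, upTabVB2_nodes4, Bool.and_self]

theorem upTabVB2_valid :
    upTabVB2.baseOK = true ∧ upTabVB2.polyOK = true ∧ upTabVB2.envOK = true := by
  obtain ⟨hb, hc, hi⟩ := upTabVB2_head
  have h : upTabVB2.cells = upTabVB2Cells0 ++ upTabVB2Cells1 ++ upTabVB2Cells2 ++ upTabVB2Cells3 ++ upTabVB2Cells4 ++ upTabVB2Cells5 ++ upTabVB2Cells6 := rfl
  refine ⟨hb, ?_, ?_⟩
  · simp only [UpData.polyOK, h, List.all_append, upTabVB2_poly0, upTabVB2_poly1, upTabVB2_poly2, upTabVB2_poly3, upTabVB2_poly4, upTabVB2_poly5, upTabVB2_poly6, Bool.and_self]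
  · simp only [UpData.envOK, hc, hi, h, List.all_append, upTabVB2_env0, upTabVB2_env1, upTabVB2_env2, upTabVB2_env3, upTabVB2_env4, upTabVB2_env5, upTabVB2_env6, Bool.and_self]

end Vale.Agent.P237.Quant
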