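import Vale.Agent.P237.Quant.LinearUpperTables.V3Poly
import Vale.Agent.P237.Quant.LinearUpperTables.V3EnvA
import Vale.Agent.P237.Quant.LinearUpperTables.V3EnvB
import Vale.Agent.P237.Quant.LinearUpperTables.V3EnvC
import Vale.Agent.P237.Quant.LinearUpperTables.V3NodesA
import Vale.Agent.P237.Quant.LinearUpperTables.V3NodesB

/-!
Checked tables of the upper bound of the linear term: V bin 3: the base, the cover and validity.
-/

set_option linter.all false

namespace Vale.Agent.P237.Quant

set_option maxRecDepth 100000 in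
theorem upTabVB3_base :
    upTabVB3.baseOK = true := by
  decide +kernel

set_option maxRecDepth 100000 in
theorem upTabVB3_cover :
    upCover upTabVB3.n₁ upTabVB3.n₀ upTabVB3.items = true := by
  decide +kernel

theorem upTabVB3_head :
    upTabVB3.baseOK = true ∧ upCover upTabVB3.n₁ upTabVB3.n₀ upTabVB3.items = true ∧
      (upTabVB3.items.all fun I => I.check upTabVB3.K) = true := by
  refine ⟨upTabVB3_base, upTabVB3_cover, ?_⟩
  have h : upTabVB3.items = (upTabVB3.items.drop 0).take 4 ++ (upTabVB3.items.drop 4).take 2 := rfl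
  rw [h]
  simp only [List.all_append, upTabVB3_nodes0, upTabVB3_nodes4, Bool.and_self]

theorem upTabVB3_valid :
    upTabVB3.baseOK = true ∧ upTabVB3.polyOK = true ∧ upTabVB3.envOK = true := by
  obtain ⟨hb, hc, hi⟩ := upTabVB3_head
  have h : upTabVB3.cells = upTabVB3Cells0 ++ upTabVB3Cells1 ++ upTabVB3Cells2 ++ upTabVB3Cells3 ++ upTabVB3Cells4 ++ upTabVB3Cells5 ++ upTabVB3Cells6 := rfl
  refine ⟨hb, ?_, ?_⟩
  · simp only [UpData.polyOK, h, List.all_append, upTabVB3_poly0, upTabVB3_poly1, upTabVB3_poly2, upTabVB3_poly3, upTabVB3_poly4, upTabVB3_poly5, upTabVB3_poly6, Bool.and_self]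
  · simp only [UpData.envOK, hc, hi, h, List.all_append, upTabVB3_env0, upTabVB3_env1, upTabVB3_env2, upTabVB3_env3, upTabVB3_env4, upTabVB3_env5, upTabVB3_env6, Bool.and_self]

end Vale.Agent.P237.Quant
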