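import Vale.Agent.P237.Quant.LinearUpperTables.V4Poly
import Vale.Agent.P237.Quant.LinearUpperTables.V4EnvA
import Vale.Agent.P237.Quant.LinearUpperTables.V4EnvB
import Vale.Agent.P237.Quant.LinearUpperTables.V4EnvC
import Vale.Agent.P237.Quant.LinearUpperTables.V4NodesA
import Vale.Agent.P237.Quant.LinearUpperTables.V4NodesB

/-!
Checked tables of the upper bound of the linear term: V bin 4: the base, the cover and validity.
-/

set_option linter.all false

namespace Vale.Agent.P237.Quant

set_option maxRecDepth 100000 in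
theorem upTabVB4_base :
    upTabVB4.baseOK = true := by
  decide +kernel

set_option maxRecDepth 100000 in
theorem upTabVB4_cover :
    upCover upTabVB4.n₁ upTabVB4.n₀ upTabVB4.items = true := by
  decide +kernel

theorem upTabVB4_head :
    upTabVB4.baseOK = true ∧ upCover upTabVB4.n₁ upTabVB4.n₀ upTabVB4.items = true ∧
      (upTabVB4.items.all fun I => I.check upTabVB4.K) = true := by
  refine ⟨upTabVB4_base, upTabVB4_cover, ?_⟩
  have h : upTabVB4.items = (upTabVB4.items.drop 0).take 4 ++ (upTabVB4.items.drop 4).take 2 := rfl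
  rw [h]
  simp only [List.all_append, upTabVB4_nodes0, upTabVB4_nodes4, Bool.and_self]

theorem upTabVB4_valid :
    upTabVB4.baseOK = true ∧ upTabVB4.polyOK = true ∧ upTabVB4.envOK = true := by
  obtain ⟨hb, hc, hi⟩ := upTabVB4_head
  have h : upTabVB4.cells = upTabVB4Cells0 ++ upTabVB4Cells1 ++ upTabVB4Cells2 ++ upTabVB4Cells3 ++ upTabVB4Cells4 ++ upTabVB4Cells5 ++ upTabVB4Cells6 := rfl
  refine ⟨hb, ?_, ?_⟩
  · simp only [UpData.polyOK, h, List.all_append, upTabVB4_poly0, upTabVB4_poly1, upTabVB4_poly2, upTabVB4_poly3, upTabVB4_poly4, upTabVB4_poly5, upTabVB4_poly6, Bool.and_self]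
  · simp only [UpData.envOK, hc, hi, h, List.all_append, upTabVB4_env0, upTabVB4_env1, upTabVB4_env2, upTabVB4_env3, upTabVB4_env4, upTabVB4_env5, upTabVB4_env6, Bool.and_self]

end Vale.Agent.P237.Quant
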