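import Vale.Agent.P237.Quant.LinearUpperTables.W0Poly
import Vale.Agent.P237.Quant.LinearUpperTables.W0EnvA
import Vale.Agent.P237.Quant.LinearUpperTables.W0EnvB
import Vale.Agent.P237.Quant.LinearUpperTables.W0EnvC
import Vale.Agent.P237.Quant.LinearUpperTables.W0NodesA
import Vale.Agent.P237.Quant.LinearUpperTables.W0NodesB

/-!
Checked tables of the upper bound of the linear term: W bin 0: the base, the cover and validity.
-/

set_option linter.all false

namespace Vale.Agent.P237.Quant

set_option maxRecDepth 100000 in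
theorem upTabWB0_base :
    upTabWB0.baseOK = true := by
  decide +kernel

set_option maxRecDepth 100000 in
theorem upTabWB0_cover :
    upCover upTabWB0.n₁ upTabWB0.n₀ upTabWB0.items = true := by
  decide +kernel

theorem upTabWB0_head :
    upTabWB0.baseOK = true ∧ upCover upTabWB0.n₁ upTabWB0.n₀ upTabWB0.items = true ∧
      (upTabWB0.items.all fun I => I.check upTabWB0.K) = true := by
  refine ⟨upTabWB0_base, upTabWB0_cover, ?_⟩
  have h : upTabWB0.items = (upTabWB0.items.drop 0).take 3 ++ (upTabWB0.items.drop 3).take 1 := rfl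
  rw [h]
  simp only [List.all_append, upTabWB0_nodes0, upTabWB0_nodes3, Bool.and_self]

theorem upTabWB0_valid :
    upTabWB0.baseOK = true ∧ upTabWB0.polyOK = true ∧ upTabWB0.envOK = true := by
  obtain ⟨hb, hc, hi⟩ := upTabWB0_head
  have h : upTabWB0.cells = upTabWB0Cells0 ++ upTabWB0Cells1 ++ upTabWB0Cells2 ++ upTabWB0Cells3 ++ upTabWB0Cells4 ++ upTabWB0Cells5 ++ upTabWB0Cells6 ++ upTabWB0Cells7 ++ upTabWB0Cells8 := rfl
  refine ⟨hb, ?_, ?_⟩
  · simp only [UpData.polyOK, h, List.all_append, upTabWB0_poly0, upTabWB0_poly1, upTabWB0_poly2, upTabWB0_poly3, upTabWB0_poly4, upTabWB0_poly5, upTabWB0_poly6, upTabWB0_poly7, upTabWB0_poly8, Bool.and_self]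
  · simp only [UpData.envOK, hc, hi, h, List.all_append, upTabWB0_env0, upTabWB0_env1, upTabWB0_env2, upTabWB0_env3, upTabWB0_env4, upTabWB0_env5, upTabWB0_env6, upTabWB0_env7, upTabWB0_env8, Bool.and_self]

end Vale.Agent.P237.Quant
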