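import Vale.Agent.P237.Quant.LinearUpperTables.W1Poly
import Vale.Agent.P237.Quant.LinearUpperTables.W1EnvA
import Vale.Agent.P237.Quant.LinearUpperTables.W1EnvB
import Vale.Agent.P237.Quant.LinearUpperTables.W1EnvC
import Vale.Agent.P237.Quant.LinearUpperTables.W1Nodes

/-!
Checked tables of the upper bound of the linear term: W bin 1: the base, the cover and validity.
-/

set_option linter.all false

namespace Vale.Agent.P237.Quant

set_option maxRecDepth 100000 in
theorem upTabWB1_base :
    upTabWB1.baseOK = true := by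
  decide +kernel

set_option maxRecDepth 100000 in
theorem upTabWB1_cover :
    upCover upTabWB1.n₁ upTabWB1.n₀ upTabWB1.items = true := by
  decide +kernel

theorem upTabWB1_head :
    upTabWB1.baseOK = true ∧ upCover upTabWB1.n₁ upTabWB1.n₀ upTabWB1.items = true ∧
      (upTabWB1.items.all fun I => I.check upTabWB1.K) = true := by
  refine ⟨upTabWB1_base, upTabWB1_cover, ?_⟩
  have h : upTabWB1.items = (upTabWB1.items.drop 0).take 4 := rfl
  rw [h]
  simp only [List.all_append, upTabWB1_nodes0, Bool.and_self]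

theorem upTabWB1_valid :
    upTabWB1.baseOK = true ∧ upTabWB1.polyOK = true ∧ upTabWB1.envOK = true := by
  obtain ⟨hb, hc, hi⟩ := upTabWB1_head
  have h : upTabWB1.cells = upTabWB1Cells0 ++ upTabWB1Cells1 ++ upTabWB1Cells2 ++ upTabWB1Cells3 ++ upTabWB1Cells4 ++ upTabWB1Cells5 ++ upTabWB1Cells6 := rfl
  refine ⟨hb, ?_, ?_⟩
  · simp only [UpData.polyOK, h, List.all_append, upTabWB1_poly0, upTabWB1_poly1, upTabWB1_poly2, upTabWB1_poly3, upTabWB1_poly4, upTabWB1_poly5, upTabWB1_poly6, Bool.and_self]
  · simp only [UpData.envOK, hc, hi, h, List.all_append, upTabWB1_env0, upTabWB1_env1, upTabWB1_env2, upTabWB1_env3, upTabWB1_env4, upTabWB1_env5, upTabWB1_env6, Bool.and_self]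

end Vale.Agent.P237.Quant
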