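import Vale.Agent.P237.Quant.LinearUpperTables.W3Poly
import Vale.Agent.P237.Quant.LinearUpperTables.W3EnvA
import Vale.Agent.P237.Quant.LinearUpperTables.W3EnvB
import Vale.Agent.P237.Quant.LinearUpperTables.W3EnvC
import Vale.Agent.P237.Quant.LinearUpperTables.W3Nodes

/-!
Checked tables of the upper bound of the linear term: W bin 3: the base, the cover and validity.
-/

set_option linter.all false

namespace Vale.Agent.P237.Quant

set_option maxRecDepth 100000 in
theorem upTabWB3_base :
    upTabWB3.baseOK = true := by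
  decide +kernel

set_option maxRecDepth 100000 in
theorem upTabWB3_cover :
    upCover upTabWB3.n₁ upTabWB3.n₀ upTabWB3.items = true := by
  decide +kernel

theorem upTabWB3_head :
    upTabWB3.baseOK = true ∧ upCover upTabWB3.n₁ upTabWB3.n₀ upTabWB3.items = true ∧
      (upTabWB3.items.all fun I => I.check upTabWB3.K) = true := by
  refine ⟨upTabWB3_base, upTabWB3_cover, ?_⟩
  have h : upTabWB3.items = (upTabWB3.items.drop 0).take 4 := rfl
  rw [h]
  simp only [List.all_append, upTabWB3_nodes0, Bool.and_self]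

theorem upTabWB3_valid :
    upTabWB3.baseOK = true ∧ upTabWB3.polyOK = true ∧ upTabWB3.envOK = true := by
  obtain ⟨hb, hc, hi⟩ := upTabWB3_head
  have h : upTabWB3.cells = upTabWB3Cells0 ++ upTabWB3Cells1 ++ upTabWB3Cells2 ++ upTabWB3Cells3 ++ upTabWB3Cells4 ++ upTabWB3Cells5 ++ upTabWB3Cells6 := rfl
  refine ⟨hb, ?_, ?_⟩
  · simp only [UpData.polyOK, h, List.all_append, upTabWB3_poly0, upTabWB3_poly1, upTabWB3_poly2, upTabWB3_poly3, upTabWB3_poly4, upTabWB3_poly5, upTabWB3_poly6, Bool.and_self]
  · simp only [UpData.envOK, hc, hi, h, List.all_append, upTabWB3_env0, upTabWB3_env1, upTabWB3_env2, upTabWB3_env3, upTabWB3_env4, upTabWB3_env5, upTabWB3_env6, Bool.and_self]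

end Vale.Agent.P237.Quant
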