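import Vale.Agent.P237.Quant.LinearUpperTables.W4Poly
import Vale.Agent.P237.Quant.LinearUpperTables.W4EnvA
import Vale.Agent.P237.Quant.LinearUpperTables.W4EnvB
import Vale.Agent.P237.Quant.LinearUpperTables.W4EnvC
import Vale.Agent.P237.Quant.LinearUpperTables.W4Nodes

/-!
Checked tables of the upper bound of the linear term: W bin 4: the base, the cover and validity.
-/

set_option linter.all false

namespace Vale.Agent.P237.Quant

set_option maxRecDepth 100000 in
theorem upTabWB4_base :
    upTabWB4.baseOK = true := by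
  decide +kernel

set_option maxRecDepth 100000 in
theorem upTabWB4_cover :
    upCover upTabWB4.n₁ upTabWB4.n₀ upTabWB4.items = true := by
  decide +kernel

theorem upTabWB4_head :
    upTabWB4.baseOK = true ∧ upCover upTabWB4.n₁ upTabWB4.n₀ upTabWB4.items = true ∧
      (upTabWB4.items.all fun I => I.check upTabWB4.K) = true := by
  refine ⟨upTabWB4_base, upTabWB4_cover, ?_⟩
  have h : upTabWB4.items = (upTabWB4.items.drop 0).take 4 := rfl
  rw [h]
  simp only [List.all_append, upTabWB4_nodes0, Bool.and_self]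

theorem upTabWB4_valid :
    upTabWB4.baseOK = true ∧ upTabWB4.polyOK = true ∧ upTabWB4.envOK = true := by
  obtain ⟨hb, hc, hi⟩ := upTabWB4_head
  have h : upTabWB4.cells = upTabWB4Cells0 ++ upTabWB4Cells1 ++ upTabWB4Cells2 ++ upTabWB4Cells3 ++ upTabWB4Cells4 ++ upTabWB4Cells5 ++ upTabWB4Cells6 ++ upTabWB4Cells7 := rfl
  refine ⟨hb, ?_, ?_⟩
  · simp only [UpData.polyOK, h, List.all_append, upTabWB4_poly0, upTabWB4_poly1, upTabWB4_poly2, upTabWB4_poly3, upTabWB4_poly4, upTabWB4_poly5, upTabWB4_poly6, upTabWB4_poly7, Bool.and_self]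
  · simp only [UpData.envOK, hc, hi, h, List.all_append, upTabWB4_env0, upTabWB4_env1, upTabWB4_env2, upTabWB4_env3, upTabWB4_env4, upTabWB4_env5, upTabWB4_env6, upTabWB4_env7, Bool.and_self]

end Vale.Agent.P237.Quant
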