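import Vale.Agent.P237.Quant.LinearUpperTables.Q0Data

/-!
Checked tables of the upper bound of the linear term: Q bin 0: the polynomial checks.
-/

set_option linter.all false

namespace Vale.Agent.P237.Quant

set_option maxRecDepth 100000 in
theorem upTabQB0_poly0 :
    (upTabQB0Cells0.all fun c => c.polyOK upTabQB0) = true := by
  decide +kernel

set_option maxRecDepth 100000 in
theorem upTabQB0_poly1 :
    (upTabQB0Cells1.all fun c => c.polyOK upTabQB0) = true := by
  decide +kernel

set_option maxRecDepth 100000 in
theorem upTabQB0_poly2 :
    (upTabQB0Cells2.all fun c => c.polyOK upTabQB0) = true := by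
  decide +kernel

set_option maxRecDepth 100000 in
theorem upTabQB0_poly3 :
    (upTabQB0Cells3.all fun c => c.polyOK upTabQB0) = true := by
  decide +kernel

set_option maxRecDepth 100000 in
theorem upTabQB0_poly4 :
    (upTabQB0Cells4.all fun c => c.polyOK upTabQB0) = true := by
  decide +kernel

set_option maxRecDepth 100000 in
theorem upTabQB0_poly5 :
    (upTabQB0Cells5.all fun c => c.polyOK upTabQB0) = true := by
  decide +kernel

set_option maxRecDepth 100000 in
theorem upTabQB0_poly6 :
    (upTabQB0Cells6.all fun c => c.polyOK upTabQB0) = true := by
  decide +kernel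

set_option maxRecDepth 100000 in
theorem upTabQB0_poly7 :
    (upTabQB0Cells7.all fun c => c.polyOK upTabQB0) = true := by
  decide +kernel

end Vale.Agent.P237.Quant
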