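import Vale.Agent.P237.Quant.LinearUpperTables.R0Data

/-!
Checked tables of the upper bound of the linear term: R bin 0: the polynomial checks.
-/

set_option linter.all false

namespace Vale.Agent.P237.Quant

set_option maxRecDepth 100000 in
theorem upTabRB0_poly0 :
    (upTabRB0Cells0.all fun c => c.polyOK upTabRB0) = true := by
  decide +kernel

set_option maxRecDepth 100000 in
theorem upTabRB0_poly1 :
    (upTabRB0Cells1.all fun c => c.polyOK upTabRB0) = true := by
  decide +kernel

set_option maxRecDepth 100000 in
theorem upTabRB0_poly2 :
    (upTabRB0Cells2.all fun c => c.polyOK upTabRB0) = true := by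
  decide +kernel

set_option maxRecDepth 100000 in
theorem upTabRB0_poly3 :
    (upTabRB0Cells3.all fun c => c.polyOK upTabRB0) = true := by
  decide +kernel

set_option maxRecDepth 100000 in
theorem upTabRB0_poly4 :
    (upTabRB0Cells4.all fun c => c.polyOK upTabRB0) = true := by
  decide +kernel

set_option maxRecDepth 100000 in
theorem upTabRB0_poly5 :
    (upTabRB0Cells5.all fun c => c.polyOK upTabRB0) = true := by
  decide +kernel

set_option maxRecDepth 100000 in
theorem upTabRB0_poly6 :
    (upTabRB0Cells6.all fun c => c.polyOK upTabRB0) = true := by
  decide +kernel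

set_option maxRecDepth 100000 in
theorem upTabRB0_poly7 :
    (upTabRB0Cells7.all fun c => c.polyOK upTabRB0) = true := by
  decide +kernel

end Vale.Agent.P237.Quant
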