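import Vale.Agent.P237.Quant.LinearUpperTables.R2Poly
import Vale.Agent.P237.Quant.LinearUpperTables.R2EnvA
import Vale.Agent.P237.Quant.LinearUpperTables.R2EnvB
import Vale.Agent.P237.Quant.LinearUpperTables.R2EnvC
import Vale.Agent.P237.Quant.LinearUpperTables.R2EnvD
import Vale.Agent.P237.Quant.LinearUpperTables.R2EnvE
import Vale.Agent.P237.Quant.LinearUpperTables.R2NodesA
import Vale.Agent.P237.Quant.LinearUpperTables.R2NodesB
import Vale.Agent.P237.Quant.LinearUpperTables.R2NodesC

/-!
Checked tables of the upper bound of the linear term: R bin 2: the base, the cover and validity.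
-/

set_option linter.all false

namespace Vale.Agent.P237.Quant

set_option maxRecDepth 100000 in
theorem upTabRB2_base :
    upTabRB2.baseOK = true := by
  decide +kernel

set_option maxRecDepth 100000 in
theorem upTabRB2_cover :
    upCover upTabRB2.n₁ upTabRB2.n₀ upTabRB2.items = true := by
  decide +kernel

theorem upTabRB2_head :
    upTabRB2.baseOK = true ∧ upCover upTabRB2.n₁ upTabRB2.n₀ upTabRB2.items = true ∧
      (upTabRB2.items.all fun I => I.check upTabRB2.K) = true := by
  refine ⟨upTabRB2_base, upTabRB2_cover, ?_⟩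
  have h : upTabRB2.items = (upTabRB2.items.drop 0).take 4 ++ (upTabRB2.items.drop 4).take 4 ++ (upTabRB2.items.drop 8).take 3 := rfl
  rw [h]
  simp only [List.all_append, upTabRB2_nodes0, upTabRB2_nodes4, upTabRB2_nodes8, Bool.and_self]

theorem upTabRB2_env1 :
    (upTabRB2Cells1.all fun c => c.envOK upTabRB2) = true := by
  rw [← List.take_append_drop 5 upTabRB2Cells1, List.all_append, upTabRB2_env1a, upTabRB2_env1b, Bool.and_self]

theorem upTabRB2_valid :
    upTabRB2.baseOK = true ∧ upTabRB2.polyOK = true ∧ upTabRB2.envOK = true := by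
  obtain ⟨hb, hc, hi⟩ := upTabRB2_head
  have h : upTabRB2.cells = upTabRB2Cells0 ++ upTabRB2Cells1 ++ upTabRB2Cells2 ++ upTabRB2Cells3 ++ upTabRB2Cells4 ++ upTabRB2Cells5 ++ upTabRB2Cells6 ++ upTabRB2Cells7 := rfl
  refine ⟨hb, ?_, ?_⟩
  · simp only [UpData.polyOK, h, List.all_append, upTabRB2_poly0, upTabRB2_poly1, upTabRB2_poly2, upTabRB2_poly3, upTabRB2_poly4, upTabRB2_poly5, upTabRB2_poly6, upTabRB2_poly7, Bool.and_self]
  · simp only [UpData.envOK, hc, hi, h, List.all_append, upTabRB2_env0, upTabRB2_env1, upTabRB2_env2, upTabRB2_env3, upTabRB2_env4, upTabRB2_env5, upTabRB2_env6, upTabRB2_env7, Bool.and_self]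

end Vale.Agent.P237.Quant
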