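import Vale.Agent.P237.Quant.LinearUpperTables.U100B0Data

/-!
The upper bound of the linear term for `100 ≤ n`, bin 0: the polynomial checks.
-/

set_option linter.all false

namespace Vale.Agent.P237.Quant

set_option maxRecDepth 100000 in
theorem upTabU100B0Poly0 : (upTabU100B0Cells0.all fun c => c.polyOK upTabU100B0) = true := by
  decide +kernel

set_option maxRecDepth 100000 in
theorem upTabU100B0Poly1 : (upTabU100B0Cells1.all fun c => c.polyOK upTabU100B0) = true := by
  decide +kernel

set_option maxRecDepth 100000 in
theorem upTabU100B0Poly2 : (upTabU100B0Cells2.all fun c => c.polyOK upTabU100B0) = true := by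
  decide +kernel

set_option maxRecDepth 100000 in
theorem upTabU100B0Poly3 : (upTabU100B0Cells3.all fun c => c.polyOK upTabU100B0) = true := by
  decide +kernel

set_option maxRecDepth 100000 in
theorem upTabU100B0Poly4 : (upTabU100B0Cells4.all fun c => c.polyOK upTabU100B0) = true := by
  decide +kernel

set_option maxRecDepth 100000 in
theorem upTabU100B0Poly5 : (upTabU100B0Cells5.all fun c => c.polyOK upTabU100B0) = true := by
  decide +kernel

set_option maxRecDepth 100000 in
theorem upTabU100B0Poly6 : (upTabU100B0Cells6.all fun c => c.polyOK upTabU100B0) = true := by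
  decide +kernel

set_option maxRecDepth 100000 in
theorem upTabU100B0Poly7 : (upTabU100B0Cells7.all fun c => c.polyOK upTabU100B0) = true := by
  decide +kernel

end Vale.Agent.P237.Quant
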