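import Vale.Agent.P237.Quant.LinearUpperTables.U100B2Data

/-!
The upper bound of the linear term for `100 ≤ n`, bin 2: the polynomial checks.
-/

set_option linter.all false

namespace Vale.Agent.P237.Quant

set_option maxRecDepth 100000 in
theorem upTabU100B2Poly0 : (upTabU100B2Cells0.all fun c => c.polyOK upTabU100B2) = true := by
  decide +kernel

set_option maxRecDepth 100000 in
theorem upTabU100B2Poly1 : (upTabU100B2Cells1.all fun c => c.polyOK upTabU100B2) = true := by
  decide +kernel

set_option maxRecDepth 100000 in
theorem upTabU100B2Poly2 : (upTabU100B2Cells2.all fun c => c.polyOK upTabU100B2) = true := by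
  decide +kernel

set_option maxRecDepth 100000 in
theorem upTabU100B2Poly3 : (upTabU100B2Cells3.all fun c => c.polyOK upTabU100B2) = true := by
  decide +kernel

set_option maxRecDepth 100000 in
theorem upTabU100B2Poly4 : (upTabU100B2Cells4.all fun c => c.polyOK upTabU100B2) = true := by
  decide +kernel

set_option maxRecDepth 100000 in
theorem upTabU100B2Poly5 : (upTabU100B2Cells5.all fun c => c.polyOK upTabU100B2) = true := by
  decide +kernel

set_option maxRecDepth 100000 in
theorem upTabU100B2Poly6 : (upTabU100B2Cells6.all fun c => c.polyOK upTabU100B2) = true := by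
  decide +kernel

set_option maxRecDepth 100000 in
theorem upTabU100B2Poly7 : (upTabU100B2Cells7.all fun c => c.polyOK upTabU100B2) = true := by
  decide +kernel

set_option maxRecDepth 100000 in
theorem upTabU100B2Poly8 : (upTabU100B2Cells8.all fun c => c.polyOK upTabU100B2) = true := by
  decide +kernel

set_option maxRecDepth 100000 in
theorem upTabU100B2Poly9 : (upTabU100B2Cells9.all fun c => c.polyOK upTabU100B2) = true := by
  decide +kernel

set_option maxRecDepth 100000 in
theorem upTabU100B2Poly10 : (upTabU100B2Cells10.all fun c => c.polyOK upTabU100B2) = true := by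
  decide +kernel

set_option maxRecDepth 100000 in
theorem upTabU100B2Poly11 : (upTabU100B2Cells11.all fun c => c.polyOK upTabU100B2) = true := by
  decide +kernel

set_option maxRecDepth 100000 in
theorem upTabU100B2Poly12 : (upTabU100B2Cells12.all fun c => c.polyOK upTabU100B2) = true := by
  decide +kernel

end Vale.Agent.P237.Quant
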