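import Vale.Agent.P237.Quant.LinearUpperTables.W2Poly
import Vale.Agent.P237.Quant.LinearUpperTables.W2EnvA
import Vale.Agent.P237.Quant.LinearUpperTables.W2EnvB
import Vale.Agent.P237.Quant.LinearUpperTables.W2EnvC
import Vale.Agent.P237.Quant.LinearUpperTables.W2Nodes

/-!
Checked tables of the upper bound of the linear term: W bin 2: the base, the cover and validity.
-/

set_option linter.all false

namespace Vale.Agent.P237.Quant

set_option maxRecDepth 100000 in
theorem upTabWB2_base :
    upTabWB2.baseOK = true := by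
  decide +kernel

set_option maxRecDepth 100000 in
theorem upTabWB2_cover :
    upCover upTabWB2.n₁ upTabWB2.n₀ upTabWB2.items = true := by
  decide +kernel

theorem upTabWB2_head :
    upTabWB2.baseOK = true ∧ upCover upTabWB2.n₁ upTabWB2.n₀ upTabWB2.items = true ∧
      (upTabWB2.items.all fun I => I.check upTabWB2.K) = true := by
  refine ⟨upTabWB2_base, upTabWB2_cover, ?_⟩
  have h : upTabWB2.items = (upTabWB2.items.drop 0).take 4 := rfl
  rw [h]
  simp only [List.all_append, upTabWB2_nodes0, Bool.and_self]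

theorem upTabWB2_valid :
    upTabWB2.baseOK = true ∧ upTabWB2.polyOK = true ∧ upTabWB2.envOK = true := by
  obtain ⟨hb, hc, hi⟩ := upTabWB2_head
  have h : upTabWB2.cells = upTabWB2Cells0 ++ upTabWB2Cells1 ++ upTabWB2Cells2 ++ upTabWB2Cells3 ++ upTabWB2Cells4 ++ upTabWB2Cells5 ++ upTabWB2Cells6 := rfl
  refine ⟨hb, ?_, ?_⟩
  · simp only [UpData.polyOK, h, List.all_append, upTabWB2_poly0, upTabWB2_poly1, upTabWB2_poly2, upTabWB2_poly3, upTabWB2_poly4, upTabWB2_poly5, upTabWB2_poly6, Bool.and_self]
  · simp only [UpData.envOK, hc, hi, h, List.all_append, upTabWB2_env0, upTabWB2_env1, upTabWB2_env2, upTabWB2_env3, upTabWB2_env4, upTabWB2_env5, upTabWB2_env6, Bool.and_self]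

end Vale.Agent.P237.Quant
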